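import Vale.Agent.P232.MathlibUsed

open MeasureTheory Set

namespace Vale.Agent.P232

/-- `E ⊆ ℝⁿ` is invariant under integer translations, that is, `E` is (the preimage of) a
subset of the torus `ℝⁿ/ℤⁿ`. -/
def IsPeriodic {n : ℕ} (E : Set (Fin n → ℝ)) : Prop :=
  ∀ (x : Fin n → ℝ) (k : Fin n → ℤ), (fun i => x i + (k i : ℝ)) ∈ E ↔ x ∈ E

/-- The half-open unit cube, a fundamental domain of `ℤⁿ`. -/
def cube (n : ℕ) : Set (Fin n → ℝ) := {x | ∀ i, 0 ≤ x i ∧ x i < 1}

/-- The volume in the torus of the set given by the periodic set `E`. -/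
noncomputable def vol {n : ℕ} (E : Set (Fin n → ℝ)) : ℝ := (volume (E ∩ cube n)).toReal

/-- The divergence of a vector field on `ℝⁿ`. -/
noncomputable def divergence {n : ℕ} (X : (Fin n → ℝ) → (Fin n → ℝ)) (x : Fin n → ℝ) : ℝ :=
  ∑ i, fderiv ℝ X x (Pi.single i 1) i

/-- The `C¹` vector fields on the torus of Euclidean length at most one. -/
structure TestField {n : ℕ} (X : (Fin n → ℝ) → (Fin n → ℝ)) : Prop where
  contDiff : ContDiff ℝ 1 X
  periodic : ∀ (x : Fin n → ℝ) (k : Fin n → ℤ), X (fun i => x i + (k i : ℝ)) = X x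
  bound : ∀ x, ∑ i, X x i ^ 2 ≤ 1

/-- De Giorgi's perimeter in the torus of the set given by the periodic set `E`. -/
noncomputable def perimeter {n : ℕ} (E : Set (Fin n → ℝ)) : ENNReal :=
  ⨆ (X : (Fin n → ℝ) → (Fin n → ℝ)) (_ : TestField X),
    ENNReal.ofReal (∫ x in E ∩ cube n, divergence X x)

/-- The isoperimetric profile of the flat torus `ℝⁿ/ℤⁿ`. -/
noncomputable def profile (n : ℕ) (V : ℝ) : ENNReal :=
  ⨅ (E : Set (Fin n → ℝ)) (_ : MeasurableSet E) (_ : IsPeriodic E) (_ : vol E = V), perimeter E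

/-- The conjectured profile of the cubic three-torus. -/
noncomputable def J (V : ℝ) : ℝ :=
  min (min ((36 * Real.pi) ^ (1 / 3 : ℝ) * (min V (1 - V)) ^ (2 / 3 : ℝ))
    (2 * Real.sqrt (Real.pi * min V (1 - V)))) 2

end Vale.Agent.P232
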