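import Vale.Agent.P232.MathlibUsed

namespace Vale.Agent.P232

/-- The open geodesic ball of centre `c` and radius `r` in the three-torus `ℝ³/ℤ³`, written as
a `ℤ³`-periodic subset of `ℝ³`. -/
def ballSet (c : Fin 3 → ℝ) (r : ℝ) : Set (Fin 3 → ℝ) :=
  {x | ∃ k : Fin 3 → ℤ, ∑ j, (x j - c j - k j) ^ 2 < r ^ 2}

/-- The open tubular neighbourhood of radius `r` of the closed geodesic through `c` in
direction `i` (a shortest closed geodesic of the torus), as a periodic subset of `ℝ³`. -/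
def tubeSet (i : Fin 3) (c : Fin 3 → ℝ) (r : ℝ) : Set (Fin 3 → ℝ) :=
  {x | ∃ k : Fin 3 → ℤ, ∑ j ∈ Finset.univ.erase i, (x j - c j - k j) ^ 2 < r ^ 2}

/-- The slab `a < x i < a + w` of the torus, as a periodic subset of `ℝ³`. -/
def slabSet (i : Fin 3) (a w : ℝ) : Set (Fin 3 → ℝ) :=
  {x | ∃ k : ℤ, a < x i - k ∧ x i - k < a + w}

/-- The model regions of volume `v ≤ 1/2`: balls for `v ≤ 4π/81`, tubes about a shortest
closed geodesic for `4π/81 ≤ v ≤ 1/π`, slabs for `1/π ≤ v`. -/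
def Model (v : ℝ) (B : Set (Fin 3 → ℝ)) : Prop :=
  (v ≤ 4 * Real.pi / 81 ∧ ∃ c r, 0 < r ∧ 4 / 3 * Real.pi * r ^ 3 = v ∧ B = ballSet c r) ∨
  (4 * Real.pi / 81 ≤ v ∧ v ≤ 1 / Real.pi ∧
    ∃ i c r, 0 < r ∧ Real.pi * r ^ 2 = v ∧ B = tubeSet i c r) ∨
  (1 / Real.pi ≤ v ∧ ∃ i a, B = slabSet i a v)

end Vale.Agent.P232
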